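import Vale.Agent.P196.H34.GaussInt

open Matrix
open scoped Matrix

namespace Vale.Agent.P196.H34

section
variable {ι : Type*} [Fintype ι] [DecidableEq ι]

/-- concrete spectral theorem for real symmetric matrices -/
lemma exists_diag (T : Matrix ι ι ℝ) (hT : T.IsHermitian) :
    ∃ (U : Matrix ι ι ℝ) (t : ι → ℝ), Uᵀ * U = 1 ∧ U * Uᵀ = 1 ∧ T = U * diagonal t * Uᵀ := by
  refine ⟨(hT.eigenvectorUnitary : Matrix ι ι ℝ), hT.eigenvalues, ?_, ?_, ?_⟩
  · have := (Matrix.mem_unitaryGroup_iff').mp hT.eigenvectorUnitary.2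
    rwa [star_eq_conjTranspose, conjTranspose_eq_transpose_of_trivial] at this
  · have := (Matrix.mem_unitaryGroup_iff).mp hT.eigenvectorUnitary.2
    rwa [star_eq_conjTranspose, conjTranspose_eq_transpose_of_trivial] at this
  · have := hT.spectral_theorem
    rw [Unitary.conjStarAlgAut_apply, star_eq_conjTranspose,
      conjTranspose_eq_transpose_of_trivial] at this
    simpa using this

omit [DecidableEq ι] in
lemma mulVec_dot {κ : Type*} [Fintype κ] (A : Matrix ι κ ℝ) (x : κ → ℝ) (y : ι → ℝ) :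
    (A.mulVec x) ⬝ᵥ y = x ⬝ᵥ (Aᵀ.mulVec y) := by
  rw [dotProduct_comm, Matrix.dotProduct_mulVec, ← Matrix.mulVec_transpose, dotProduct_comm]

omit [Fintype ι] in
lemma one_sub_sum_le_prod {s : Finset ι} (x : ι → ℝ) (h0 : ∀ i, 0 ≤ x i) (h1 : ∀ i, x i ≤ 1) :
    1 - ∑ i ∈ s, x i ≤ ∏ i ∈ s, (1 - x i) := by
  classical
  induction s using Finset.induction_on with
  | empty => simp
  | insert a s ha ih =>
    rw [Finset.sum_insert ha, Finset.prod_insert ha]
    have hp1 : ∏ i ∈ s, (1 - x i) ≤ 1 :=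
      Finset.prod_le_one (fun i _ => by linarith [h1 i]) (fun i _ => by linarith [h0 i])
    nlinarith [h0 a, h1 a]

lemma det_one_sub_sq (T : Matrix ι ι ℝ) (hT : T.IsHermitian)
    (h1 : (1 - T).PosSemidef) (h2 : (1 + T).PosSemidef) :
    1 - (T * T).trace ≤ (1 - T * T).det := by
  obtain ⟨U, t, hU1, hU2, hTU⟩ := exists_diag T hT
  have hTT : T * T = U * diagonal (fun i => t i * t i) * Uᵀ := by
    rw [hTU]
    calc U * diagonal t * Uᵀ * (U * diagonal t * Uᵀ)
        = U * diagonal t * (Uᵀ * U) * diagonal t * Uᵀ := by simp only [Matrix.mul_assoc]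
      _ = _ := by
        rw [hU1, Matrix.mul_one, Matrix.mul_assoc U, Matrix.diagonal_mul_diagonal]
  have htr : (T * T).trace = ∑ i, t i * t i := by
    rw [hTT, Matrix.trace_mul_comm, ← Matrix.mul_assoc, hU1, Matrix.one_mul, Matrix.trace_diagonal]
  have hdet : (1 - T * T).det = ∏ i, (1 - t i * t i) := by
    have : 1 - T * T = U * diagonal (fun i => 1 - t i * t i) * Uᵀ := by
      have hd : (diagonal (fun i => 1 - t i * t i) : Matrix ι ι ℝ)
          = 1 - diagonal (fun i => t i * t i) := by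
        rw [← Matrix.diagonal_one, Matrix.diagonal_sub]
      rw [hd, Matrix.mul_sub, Matrix.sub_mul, Matrix.mul_one, hU2, ← hTT]
    rw [this, Matrix.det_mul, Matrix.det_mul, mul_comm, ← mul_assoc, ← Matrix.det_mul, hU1,
      Matrix.det_one, one_mul, Matrix.det_diagonal]
  have ht : ∀ i, t i ≤ 1 ∧ -1 ≤ t i := by
    intro i
    have e : (Pi.single i (1:ℝ) : ι → ℝ) ⬝ᵥ (diagonal t).mulVec (Pi.single i 1) = t i := by
      simp
    have hv : (U.mulVec (Pi.single i 1)) ⬝ᵥ T.mulVec (U.mulVec (Pi.single i 1)) = t i := by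
      rw [hTU]
      calc (U.mulVec (Pi.single i 1)) ⬝ᵥ (U * diagonal t * Uᵀ).mulVec (U.mulVec (Pi.single i 1))
          = (Pi.single i 1) ⬝ᵥ (Uᵀ * (U * diagonal t * Uᵀ) * U).mulVec (Pi.single i 1) := by
            rw [mulVec_dot, Matrix.mulVec_mulVec, Matrix.mulVec_mulVec, Matrix.mul_assoc]
        _ = (Pi.single i 1) ⬝ᵥ (diagonal t).mulVec (Pi.single i 1) := by
            congr 2
            calc Uᵀ * (U * diagonal t * Uᵀ) * U = (Uᵀ * U) * diagonal t * (Uᵀ * U) := by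
                  simp only [Matrix.mul_assoc]
              _ = diagonal t := by rw [hU1, Matrix.one_mul, Matrix.mul_one]
        _ = t i := e
    have hvv : (U.mulVec (Pi.single i (1:ℝ))) ⬝ᵥ (U.mulVec (Pi.single i 1)) = 1 := by
      rw [mulVec_dot, Matrix.mulVec_mulVec, hU1, Matrix.one_mulVec]
      simp
    have p1 := h1.dotProduct_mulVec_nonneg (U.mulVec (Pi.single i 1))
    have p2 := h2.dotProduct_mulVec_nonneg (U.mulVec (Pi.single i 1))
    rw [star_trivial, Matrix.sub_mulVec, Matrix.one_mulVec, dotProduct_sub, hv, hvv] at p1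
    rw [star_trivial, Matrix.add_mulVec, Matrix.one_mulVec, dotProduct_add, hv, hvv] at p2
    constructor <;> linarith
  rw [htr, hdet]
  refine one_sub_sum_le_prod _ (fun i => mul_self_nonneg _) (fun i => ?_)
  nlinarith [(ht i).1, (ht i).2]

omit [DecidableEq ι] in
lemma sum_sq_eq_trace (D : Matrix ι ι ℝ) : ∑ i, ∑ j, D i j ^ 2 = (D * Dᵀ).trace := by
  simp only [Matrix.trace, Matrix.diag, Matrix.mul_apply, Matrix.transpose_apply, sq]

lemma sum_sq_conj (U D : Matrix ι ι ℝ) (hU : U * Uᵀ = 1) :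
    ∑ i, ∑ j, (Uᵀ * D * U) i j ^ 2 = ∑ i, ∑ j, D i j ^ 2 := by
  rw [sum_sq_eq_trace, sum_sq_eq_trace]
  have : (Uᵀ * D * U) * (Uᵀ * D * U)ᵀ = Uᵀ * (D * Dᵀ) * U := by
    rw [Matrix.transpose_mul, Matrix.transpose_mul, Matrix.transpose_transpose]
    calc Uᵀ * D * U * (Uᵀ * (Dᵀ * U)) = Uᵀ * D * (U * Uᵀ) * Dᵀ * U := by
          simp only [Matrix.mul_assoc]
      _ = _ := by rw [hU, Matrix.mul_one]; simp only [Matrix.mul_assoc]
  rw [this, Matrix.trace_mul_comm, ← Matrix.mul_assoc, hU, Matrix.one_mul]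

theorem det_ratio (Q₁ Q₂ : Matrix ι ι ℝ) (h1 : Q₁.PosSemidef) (h2 : Q₂.PosSemidef)
    (hdet : (1 + (Q₁ + Q₁)).det = (1 + (Q₂ + Q₂)).det) :
    (1 - ∑ i, ∑ j, (Q₁ - Q₂) i j ^ 2) * (1 + (Q₁ + Q₂)).det ^ 2 ≤ (1 + (Q₁ + Q₁)).det ^ 2 := by
  set M := 1 + (Q₁ + Q₂) with hM
  set D := Q₁ - Q₂ with hD
  have hMh : M.IsHermitian := (Matrix.isHermitian_one).add (h1.1.add h2.1)
  have hDh : D.IsHermitian := h1.1.sub h2.1
  obtain ⟨U, m, hU1, hU2, hMU⟩ := exists_diag M hMh
  have hm : ∀ i, 1 ≤ m i := by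
    intro i
    have hv : (U.mulVec (Pi.single i 1)) ⬝ᵥ M.mulVec (U.mulVec (Pi.single i 1)) = m i := by
      rw [mulVec_dot, Matrix.mulVec_mulVec, Matrix.mulVec_mulVec, Matrix.mul_assoc]
      have : Uᵀ * (M * U) = diagonal m := by
        rw [hMU]
        calc Uᵀ * (U * diagonal m * Uᵀ * U) = (Uᵀ * U) * diagonal m * (Uᵀ * U) := by
              simp only [Matrix.mul_assoc]
          _ = diagonal m := by rw [hU1, Matrix.one_mul, Matrix.mul_one]
      rw [this]
      simp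
    have hvv : (U.mulVec (Pi.single i (1:ℝ))) ⬝ᵥ (U.mulVec (Pi.single i 1)) = 1 := by
      rw [mulVec_dot, Matrix.mulVec_mulVec, hU1, Matrix.one_mulVec]
      simp
    have p := (h1.add h2).dotProduct_mulVec_nonneg (U.mulVec (Pi.single i 1))
    rw [hM, Matrix.add_mulVec, Matrix.one_mulVec, dotProduct_add, hvv] at hv
    rw [star_trivial] at p
    linarith
  set c : ι → ℝ := fun i => (Real.sqrt (m i))⁻¹ with hc
  have hc0 : ∀ i, 0 < c i := fun i => inv_pos.mpr (Real.sqrt_pos.mpr (by linarith [hm i]))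
  have hc1 : ∀ i, c i ≤ 1 := fun i => inv_le_one_of_one_le₀ (Real.one_le_sqrt.mpr (hm i))
  have hcm : ∀ i, c i * m i * c i = 1 := by
    intro i
    have h0 : 0 < m i := by linarith [hm i]
    have : Real.sqrt (m i) * Real.sqrt (m i) = m i := Real.mul_self_sqrt h0.le
    simp only [hc]
    have hs : Real.sqrt (m i) ≠ 0 := (Real.sqrt_pos.mpr h0).ne'
    field_simp
    linarith
  set C : Matrix ι ι ℝ := U * diagonal c with hC
  have hCM : Cᵀ * M * C = 1 := by
    rw [hC, hMU, Matrix.transpose_mul, Matrix.diagonal_transpose]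
    calc diagonal c * Uᵀ * (U * diagonal m * Uᵀ) * (U * diagonal c)
        = diagonal c * (Uᵀ * U) * diagonal m * (Uᵀ * U) * diagonal c := by
          simp only [Matrix.mul_assoc]
      _ = 1 := by
          rw [hU1, Matrix.mul_one, Matrix.mul_one, Matrix.diagonal_mul_diagonal,
            Matrix.diagonal_mul_diagonal]
          simp_rw [hcm]
          exact Matrix.diagonal_one
  set T : Matrix ι ι ℝ := Cᵀ * D * C with hT
  have hTh : T.IsHermitian := by
    have := Matrix.isHermitian_conjTranspose_mul_mul C hDh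
    rwa [conjTranspose_eq_transpose_of_trivial] at this
  have hp : ∀ Q : Matrix ι ι ℝ, Q.PosSemidef → (Cᵀ * (1 + (Q + Q)) * C).PosSemidef := by
    intro Q hQ
    have h := (Matrix.PosSemidef.one (n := ι) (R := ℝ)).add (hQ.add hQ)
    have := h.conjTranspose_mul_mul_same C
    rwa [conjTranspose_eq_transpose_of_trivial] at this
  have e1 : 1 + T = Cᵀ * (1 + (Q₁ + Q₁)) * C := by
    have : (1 + (Q₁ + Q₁) : Matrix ι ι ℝ) = M + D := by rw [hM, hD]; abel
    rw [this, Matrix.mul_add, Matrix.add_mul, hCM]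
  have e2 : 1 - T = Cᵀ * (1 + (Q₂ + Q₂)) * C := by
    have : (1 + (Q₂ + Q₂) : Matrix ι ι ℝ) = M - D := by rw [hM, hD]; abel
    rw [this, Matrix.mul_sub, Matrix.sub_mul, hCM]
  have key := det_one_sub_sq T hTh (e2 ▸ hp Q₂ h2) (e1 ▸ hp Q₁ h1)
  have hdetT : (1 - T * T).det * M.det ^ 2 = (1 + (Q₁ + Q₁)).det ^ 2 := by
    have hfac : 1 - T * T = (1 + T) * (1 - T) := by
      noncomm_ring
    have hCdet : C.det * M.det * C.det = 1 := by
      have := congrArg Matrix.det hCM
      rwa [Matrix.det_mul, Matrix.det_mul, Matrix.det_transpose, Matrix.det_one] at this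
    rw [hfac, e1, e2]
    simp only [Matrix.det_mul, Matrix.det_transpose]
    rw [← hdet]
    have : C.det * (1 + (Q₁ + Q₁)).det * C.det * (C.det * (1 + (Q₁ + Q₁)).det * C.det) * M.det ^ 2
        = (C.det * M.det * C.det) ^ 2 * (1 + (Q₁ + Q₁)).det ^ 2 := by ring
    rw [this, hCdet]; ring
  have htr : (T * T).trace ≤ ∑ i, ∑ j, D i j ^ 2 := by
    have hTt : Tᵀ = T := by
      have := hTh; rwa [Matrix.IsHermitian, conjTranspose_eq_transpose_of_trivial] at this
    have : (T * T).trace = ∑ i, ∑ j, T i j ^ 2 := by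
      rw [sum_sq_eq_trace, hTt]
    rw [this, ← sum_sq_conj U D hU2]
    refine Finset.sum_le_sum fun i _ => Finset.sum_le_sum fun j _ => ?_
    have hTij : T i j = c i * (Uᵀ * D * U) i j * c j := by
      have : T = diagonal c * (Uᵀ * D * U) * diagonal c := by
        rw [hT, hC, Matrix.transpose_mul, Matrix.diagonal_transpose]
        simp only [Matrix.mul_assoc]
      rw [this, Matrix.mul_diagonal, Matrix.diagonal_mul]
    rw [hTij]
    have hx : (c i * (Uᵀ * D * U) i j * c j) ^ 2 = (c i * c j) ^ 2 * ((Uᵀ * D * U) i j) ^ 2 := by ring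
    rw [hx]
    have hcc : (c i * c j) ^ 2 ≤ 1 := by
      have : c i * c j ≤ 1 := mul_le_one₀ (hc1 i) (hc0 j).le (hc1 j)
      exact pow_le_one₀ (mul_pos (hc0 i) (hc0 j)).le this
    nlinarith [sq_nonneg ((Uᵀ * D * U) i j)]
  rw [← hdetT]
  have hM0 : 0 ≤ M.det ^ 2 := sq_nonneg _
  nlinarith

end

end Vale.Agent.P196.H34
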