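import Mathlib

open MeasureTheory Filter Topology

namespace Vale.Agent.P196.H34

section
variable {E : Type*} [MeasurableSpace E]

lemma simple_expand (γ : Measure E) [IsFiniteMeasure γ] (s : SimpleFunc E E) (K : E × E → ℝ) :
    ∫ z, K (s z.1, s z.2) ∂(γ.prod γ)
      = ∑ a ∈ s.range, ∑ a' ∈ s.range,
        (∫ x, (s ⁻¹' {a}).indicator (fun _ => (1:ℝ)) x ∂γ)
          * (∫ x, (s ⁻¹' {a'}).indicator (fun _ => (1:ℝ)) x ∂γ) * K (a, a') := by
  classical
  have h1 : ∀ z : E × E, K (s z.1, s z.2) = ∑ a ∈ s.range, ∑ a' ∈ s.range,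
      ((s ⁻¹' {a}).indicator (fun _ => (1:ℝ)) z.1 * (s ⁻¹' {a'}).indicator (fun _ => (1:ℝ)) z.2)
        * K (a, a') := by
    intro z
    rw [Finset.sum_eq_single (s z.1)]
    · rw [Finset.sum_eq_single (s z.2)]
      · simp [Set.indicator]
      · intro a' _ ha'
        have : z.2 ∉ s ⁻¹' {a'} := fun h => ha' (by simpa using h.symm)
        rw [Set.indicator_of_notMem this]; simp
      · intro h; exact absurd (s.mem_range_self z.2) h
    · intro a _ ha
      refine Finset.sum_eq_zero fun a' _ => ?_
      have : z.1 ∉ s ⁻¹' {a} := fun h => ha (by simpa using h.symm)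
      rw [Set.indicator_of_notMem this]; simp
    · intro h; exact absurd (s.mem_range_self z.1) h
  have hint : ∀ a a', Integrable (fun z : E × E =>
      ((s ⁻¹' {a}).indicator (fun _ => (1:ℝ)) z.1 * (s ⁻¹' {a'}).indicator (fun _ => (1:ℝ)) z.2)
        * K (a, a')) (γ.prod γ) := by
    intro a a'
    refine Integrable.mul_const ?_ _
    have i1 : Integrable ((s ⁻¹' {a}).indicator (fun _ => (1:ℝ))) γ :=
      (integrable_const 1).indicator (s.measurableSet_preimage _)
    have i2 : Integrable ((s ⁻¹' {a'}).indicator (fun _ => (1:ℝ))) γ :=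
      (integrable_const 1).indicator (s.measurableSet_preimage _)
    exact i1.mul_prod i2
  simp_rw [h1]
  rw [integral_finsetSum _ fun a _ => integrable_finsetSum _ fun a' _ => hint a a']
  refine Finset.sum_congr rfl fun a _ => ?_
  rw [integral_finsetSum _ fun a' _ => hint a a']
  refine Finset.sum_congr rfl fun a' _ => ?_
  rw [integral_mul_const, integral_prod_mul]

variable [PseudoEMetricSpace E] [OpensMeasurableSpace E] [SecondCountableTopology E]

/-- A finite measure is approximated by finitely supported ones, as far as finitely many bounded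
continuous two-point kernels are concerned. -/
theorem discretize [Nonempty E] (γ : Measure E) [IsFiniteMeasure γ] {G : Type*} [Finite G]
    (K : G → E × E → ℝ) (hK : ∀ g, Continuous (K g)) (C : ℝ) (hC : ∀ g z, |K g z| ≤ C)
    {ε : ℝ} (hε : 0 < ε) :
    ∃ (A : Finset E) (p : E → ℝ), (∀ a, 0 ≤ p a) ∧
      ∀ g, |(∑ a ∈ A, ∑ a' ∈ A, p a * p a' * K g (a, a')) - ∫ z, K g z ∂(γ.prod γ)| < ε := by
  classical
  obtain ⟨y₀⟩ := ‹Nonempty E›
  let s : ℕ → SimpleFunc E E := SimpleFunc.approxOn id measurable_id Set.univ y₀ trivial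
  have hs : ∀ x, Tendsto (fun n => s n x) atTop (𝓝 x) := by
    intro x
    have := SimpleFunc.tendsto_approxOn (f := (id : E → E)) measurable_id
      (s := Set.univ) (y₀ := y₀) trivial (x := x) (by simp)
    simpa using this
  have hlim : ∀ g, Tendsto (fun n => ∫ z, K g (s n z.1, s n z.2) ∂(γ.prod γ)) atTop
      (𝓝 (∫ z, K g z ∂(γ.prod γ))) := by
    intro g
    refine tendsto_integral_of_dominated_convergence (fun _ => C) ?_ (integrable_const C) ?_ ?_
    · intro n
      refine (((hK g).measurable.comp ?_)).aestronglyMeasurable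
      exact ((s n).measurable.comp measurable_fst).prodMk ((s n).measurable.comp measurable_snd)
    · intro n
      exact Eventually.of_forall fun z => by simpa using hC g _
    · exact Eventually.of_forall fun z =>
        ((hK g).tendsto z).comp ((hs z.1).prodMk_nhds (hs z.2))
  have hev : ∀ᶠ n in atTop, ∀ g,
      |(∫ z, K g (s n z.1, s n z.2) ∂(γ.prod γ)) - ∫ z, K g z ∂(γ.prod γ)| < ε := by
    rw [eventually_all]
    intro g
    have := Metric.tendsto_nhds.mp (hlim g) ε hε
    simpa [Real.dist_eq] using this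
  obtain ⟨n, hn⟩ := hev.exists
  refine ⟨(s n).range, fun a => ∫ x, ((s n) ⁻¹' {a}).indicator (fun _ => (1:ℝ)) x ∂γ, ?_, ?_⟩
  · intro a
    exact integral_nonneg fun x => Set.indicator_nonneg (fun _ _ => zero_le_one) x
  · intro g
    rw [← simple_expand]
    exact hn g

end

end Vale.Agent.P196.H34
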