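import Mathlib

open MeasureTheory Matrix
open scoped Matrix

namespace Vale.Agent.P196.H34

lemma int_one_dim (c : ℝ) :
    ∫ y : ℝ, Real.exp (-(1/2) * y^2 + c * y) = Real.sqrt (2 * Real.pi) * Real.exp (c^2/2) := by
  have h1 : ∀ y : ℝ, Real.exp (-(1/2) * y^2 + c * y)
      = (fun z => Real.exp (-(1/2) * z^2) * Real.exp (c^2/2)) (y - c) := by
    intro y
    simp only
    rw [← Real.exp_add]
    congr 1
    ring
  simp_rw [h1]
  rw [integral_sub_right_eq_self (fun z : ℝ => Real.exp (-(1/2) * z^2) * Real.exp (c^2/2)) c]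
  rw [integral_mul_const, integral_gaussian]
  congr 2
  ring

section
variable {κ : Type*} [Fintype κ]

lemma int_prod (c : κ → ℝ) :
    ∫ y : κ → ℝ, Real.exp (-(1/2) * (y ⬝ᵥ y) + c ⬝ᵥ y)
      = Real.sqrt (2 * Real.pi) ^ (Fintype.card κ) * Real.exp ((c ⬝ᵥ c)/2) := by
  have h1 : ∀ y : κ → ℝ, Real.exp (-(1/2) * (y ⬝ᵥ y) + c ⬝ᵥ y)
      = ∏ i, Real.exp (-(1/2) * (y i)^2 + c i * y i) := by
    intro y
    rw [← Real.exp_sum]
    congr 1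
    simp only [dotProduct, Finset.mul_sum]
    rw [← Finset.sum_add_distrib]
    refine Finset.sum_congr rfl (fun i _ => ?_)
    ring
  simp_rw [h1]
  rw [MeasureTheory.integral_fintype_prod_volume_eq_prod (fun i (t : ℝ) => Real.exp (-(1/2) * t^2 + c i * t))]
  simp_rw [int_one_dim]
  rw [Finset.prod_mul_distrib, ← Real.exp_sum, Finset.prod_const, Finset.card_univ]
  congr 2
  simp only [dotProduct, Finset.sum_div]
  refine Finset.sum_congr rfl (fun i _ => ?_)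
  ring

lemma continuous_gauss (A : Matrix κ κ ℝ) (h : κ → ℝ) :
    Continuous (fun x : κ → ℝ => Real.exp (-(1/2) * (x ⬝ᵥ A.mulVec x) + h ⬝ᵥ x)) := by
  fun_prop

variable [DecidableEq κ]

open scoped MatrixOrder Matrix.Norms.L2Operator in
lemma exists_sqrt (A : Matrix κ κ ℝ) (hA : A.PosSemidef) : ∃ B : Matrix κ κ ℝ, A = Bᵀ * B := by
  obtain ⟨B, hB⟩ := CStarAlgebra.nonneg_iff_eq_star_mul_self.mp hA.nonneg
  refine ⟨B, ?_⟩
  rw [hB, star_eq_conjTranspose, Matrix.conjTranspose_eq_transpose_of_trivial]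

/-- Gaussian integral with a positive definite matrix. -/
theorem int_posDef (A : Matrix κ κ ℝ) (hA : A.PosDef) (h : κ → ℝ) :
    ∫ x : κ → ℝ, Real.exp (-(1/2) * (x ⬝ᵥ A.mulVec x) + h ⬝ᵥ x)
      = Real.sqrt (2 * Real.pi) ^ (Fintype.card κ) / Real.sqrt A.det
          * Real.exp ((h ⬝ᵥ A⁻¹.mulVec h)/2) := by
  obtain ⟨B, hB⟩ := exists_sqrt A hA.posSemidef
  have hdet : A.det = B.det ^ 2 := by
    rw [hB, Matrix.det_mul, Matrix.det_transpose]; ring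
  have hpos : 0 < A.det := hA.det_pos
  have hBne : B.det ≠ 0 := by
    intro h0
    rw [hdet, h0] at hpos
    simp at hpos
  have hBu : IsUnit B.det := isUnit_iff_ne_zero.mpr hBne
  set c : κ → ℝ := (B⁻¹)ᵀ.mulVec h with hc
  have hcB : ∀ x : κ → ℝ, c ⬝ᵥ B.mulVec x = h ⬝ᵥ x := by
    intro x
    rw [hc, Matrix.mulVec_transpose, Matrix.dotProduct_mulVec, Matrix.vecMul_vecMul,
      Matrix.nonsing_inv_mul B hBu, Matrix.vecMul_one]
  have hcc : c ⬝ᵥ c = h ⬝ᵥ A⁻¹.mulVec h := by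
    rw [hc, hB, Matrix.mul_inv_rev, ← Matrix.mulVec_mulVec, Matrix.dotProduct_mulVec h,
      ← Matrix.mulVec_transpose, Matrix.transpose_nonsing_inv]
  have hxx : ∀ x : κ → ℝ, (B.mulVec x) ⬝ᵥ (B.mulVec x) = x ⬝ᵥ A.mulVec x := by
    intro x
    rw [hB, ← Matrix.mulVec_mulVec, Matrix.dotProduct_mulVec x, Matrix.vecMul_transpose]
  have hF : ∀ x : κ → ℝ, Real.exp (-(1/2) * (x ⬝ᵥ A.mulVec x) + h ⬝ᵥ x)
      = (fun y : κ → ℝ => Real.exp (-(1/2) * (y ⬝ᵥ y) + c ⬝ᵥ y)) (Matrix.toLin' B x) := by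
    intro x
    simp only [Matrix.toLin'_apply]
    rw [hxx, hcB]
  simp_rw [hF]
  have hmeas : Measurable (Matrix.toLin' B : (κ → ℝ) → (κ → ℝ)) :=
    (Matrix.toLin' B).continuous_of_finiteDimensional.measurable
  have hcont : Continuous (fun y : κ → ℝ => Real.exp (-(1/2) * (y ⬝ᵥ y) + c ⬝ᵥ y)) := by
    fun_prop
  rw [← MeasureTheory.integral_map hmeas.aemeasurable hcont.aestronglyMeasurable,
    Real.map_matrix_volume_pi_eq_smul_volume_pi hBne, MeasureTheory.integral_smul_measure,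
    int_prod, hcc]
  rw [hdet, Real.sqrt_sq_eq_abs, abs_inv, ENNReal.toReal_ofReal (by positivity), smul_eq_mul]
  field_simp

variable {ι : Type*} [Fintype ι] [DecidableEq ι]

omit [DecidableEq ι] in
lemma posDef_one_add (L : Matrix ι κ ℝ) : (1 + Lᵀ * L).PosDef := by
  have h := Matrix.posSemidef_conjTranspose_mul_self L
  rw [Matrix.conjTranspose_eq_transpose_of_trivial] at h
  exact Matrix.PosDef.one.add_posSemidef h

omit [DecidableEq κ] in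
lemma posDef_one_add' (L : Matrix ι κ ℝ) : (1 + L * Lᵀ).PosDef := by
  simpa using posDef_one_add Lᵀ

lemma push_through (L : Matrix ι κ ℝ) :
    L * (1 + Lᵀ * L)⁻¹ * Lᵀ = 1 - (1 + L * Lᵀ)⁻¹ := by
  have hu1 : IsUnit (1 + Lᵀ * L).det := isUnit_iff_ne_zero.mpr (posDef_one_add L).det_pos.ne'
  have hu2 : IsUnit (1 + L * Lᵀ).det := isUnit_iff_ne_zero.mpr (posDef_one_add' L).det_pos.ne'
  have h1 : (1 + L * Lᵀ) * L = L * (1 + Lᵀ * L) := by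
    rw [Matrix.add_mul, Matrix.mul_add, Matrix.one_mul, Matrix.mul_one, Matrix.mul_assoc]
  have h2 : L * (1 + Lᵀ * L)⁻¹ = (1 + L * Lᵀ)⁻¹ * L := by
    calc L * (1 + Lᵀ * L)⁻¹ = (1 + L * Lᵀ)⁻¹ * ((1 + L * Lᵀ) * L) * (1 + Lᵀ * L)⁻¹ := by
          rw [← Matrix.mul_assoc (1 + L * Lᵀ)⁻¹, Matrix.nonsing_inv_mul _ hu2, Matrix.one_mul]
      _ = (1 + L * Lᵀ)⁻¹ * L * ((1 + Lᵀ * L) * (1 + Lᵀ * L)⁻¹) := by
          rw [h1]; simp only [Matrix.mul_assoc]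
      _ = (1 + L * Lᵀ)⁻¹ * L := by rw [Matrix.mul_nonsing_inv _ hu1, Matrix.mul_one]
  rw [h2]
  have h3 : (1 + L * Lᵀ)⁻¹ * (1 + L * Lᵀ) = 1 := Matrix.nonsing_inv_mul _ hu2
  rw [Matrix.mul_add, Matrix.mul_one] at h3
  rw [Matrix.mul_assoc]
  exact eq_sub_of_add_eq' h3

/-- The Gaussian smoothing formula (G1a). -/
theorem int_shift (L : Matrix ι κ ℝ) (b : ι → ℝ) :
    ∫ x : κ → ℝ, Real.exp (-(1/2) * (x ⬝ᵥ x))
        * Real.exp (-(1/2) * ((L.mulVec x - b) ⬝ᵥ (L.mulVec x - b)))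
      = Real.sqrt (2 * Real.pi) ^ (Fintype.card κ) / Real.sqrt (1 + L * Lᵀ).det
          * Real.exp (-(b ⬝ᵥ (1 + L * Lᵀ)⁻¹.mulVec b)/2) := by
  have h1 : ∀ x : κ → ℝ, Real.exp (-(1/2) * (x ⬝ᵥ x))
        * Real.exp (-(1/2) * ((L.mulVec x - b) ⬝ᵥ (L.mulVec x - b)))
      = Real.exp (-(1/2) * (x ⬝ᵥ (1 + Lᵀ * L).mulVec x) + (Lᵀ.mulVec b) ⬝ᵥ x)
        * Real.exp (-(1/2) * (b ⬝ᵥ b)) := by
    intro x
    rw [← Real.exp_add, ← Real.exp_add]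
    congr 1
    have e1 : x ⬝ᵥ (1 + Lᵀ * L).mulVec x = x ⬝ᵥ x + L.mulVec x ⬝ᵥ L.mulVec x := by
      rw [Matrix.add_mulVec, Matrix.one_mulVec, dotProduct_add, ← Matrix.mulVec_mulVec,
        Matrix.dotProduct_mulVec x, Matrix.vecMul_transpose]
    have e2 : (Lᵀ.mulVec b) ⬝ᵥ x = b ⬝ᵥ L.mulVec x := by
      rw [Matrix.mulVec_transpose, Matrix.dotProduct_mulVec]
    have e3 : L.mulVec x ⬝ᵥ b = b ⬝ᵥ L.mulVec x := dotProduct_comm _ _
    rw [e1, e2]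
    simp only [sub_dotProduct, dotProduct_sub]
    rw [e3]
    ring
  simp_rw [h1]
  rw [integral_mul_const, int_posDef _ (posDef_one_add L), Matrix.det_one_add_mul_comm L Lᵀ]
  rw [mul_assoc, ← Real.exp_add]
  congr 2
  have e4 : Lᵀ.mulVec b ⬝ᵥ (1 + Lᵀ * L)⁻¹.mulVec (Lᵀ.mulVec b)
      = b ⬝ᵥ b - b ⬝ᵥ (1 + L * Lᵀ)⁻¹.mulVec b := by
    have := push_through L
    calc Lᵀ.mulVec b ⬝ᵥ (1 + Lᵀ * L)⁻¹.mulVec (Lᵀ.mulVec b)
        = b ⬝ᵥ (L * (1 + Lᵀ * L)⁻¹ * Lᵀ).mulVec b := by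
          rw [Matrix.mulVec_transpose, ← Matrix.dotProduct_mulVec, Matrix.mul_assoc,
            ← Matrix.mulVec_mulVec, ← Matrix.mulVec_mulVec, Matrix.mulVec_transpose]
      _ = b ⬝ᵥ b - b ⬝ᵥ (1 + L * Lᵀ)⁻¹.mulVec b := by
          rw [this, Matrix.sub_mulVec, Matrix.one_mulVec, dotProduct_sub]
  rw [e4]
  ring

end

end Vale.Agent.P196.H34
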