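import Vale.Agent.P196.H34.TwoCopy
import Vale.Agent.P196.H34.DetIneq
import Vale.Agent.P196.H34.Discrete

open MeasureTheory Matrix
open scoped Matrix

namespace Vale.Agent.P196.H34

section inv
variable {ι : Type*} [Fintype ι] [DecidableEq ι]

omit [DecidableEq ι] in
lemma dot_symm (A : Matrix ι ι ℝ) (hA : A.IsHermitian) (x y : ι → ℝ) :
    x ⬝ᵥ A.mulVec y = y ⬝ᵥ A.mulVec x := by
  have hAt : Aᵀ = A := by
    have := hA; rwa [Matrix.IsHermitian, conjTranspose_eq_transpose_of_trivial] at this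
  rw [dotProduct_comm x, mulVec_dot, hAt]

/-- variational formula for the quadratic form of the inverse, lower bound part. -/
lemma inv_var (A : Matrix ι ι ℝ) (hA : A.PosDef) (b x : ι → ℝ) :
    2 * (b ⬝ᵥ x) - x ⬝ᵥ A.mulVec x ≤ b ⬝ᵥ A⁻¹.mulVec b := by
  have hu : IsUnit A.det := isUnit_iff_ne_zero.mpr hA.det_pos.ne'
  set y := A⁻¹.mulVec b with hy
  have hAy : A.mulVec y = b := by
    rw [hy, Matrix.mulVec_mulVec, Matrix.mul_nonsing_inv _ hu, Matrix.one_mulVec]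
  have h := hA.posSemidef.dotProduct_mulVec_nonneg (x - y)
  rw [star_trivial, Matrix.mulVec_sub, sub_dotProduct, dotProduct_sub, dotProduct_sub, hAy,
    dot_symm A hA.1 y x, hAy] at h
  have e1 : x ⬝ᵥ b = b ⬝ᵥ x := dotProduct_comm _ _
  have e2 : y ⬝ᵥ b = b ⬝ᵥ y := dotProduct_comm _ _
  rw [e1, e2] at h
  linarith

lemma inv_var_eq (A : Matrix ι ι ℝ) (hA : A.PosDef) (b : ι → ℝ) :
    b ⬝ᵥ A⁻¹.mulVec b
      = 2 * (b ⬝ᵥ A⁻¹.mulVec b) - (A⁻¹.mulVec b) ⬝ᵥ A.mulVec (A⁻¹.mulVec b) := by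
  have hu : IsUnit A.det := isUnit_iff_ne_zero.mpr hA.det_pos.ne'
  have hAy : A.mulVec (A⁻¹.mulVec b) = b := by
    rw [Matrix.mulVec_mulVec, Matrix.mul_nonsing_inv _ hu, Matrix.one_mulVec]
  rw [hAy, dotProduct_comm (A⁻¹.mulVec b) b]
  ring

lemma inv_form_eq (A : Matrix ι ι ℝ) (hA : A.PosDef) (b x : ι → ℝ) (hx : A.mulVec x = b) :
    b ⬝ᵥ A⁻¹.mulVec b = b ⬝ᵥ x := by
  have hu : IsUnit A.det := isUnit_iff_ne_zero.mpr hA.det_pos.ne'
  have : A⁻¹.mulVec b = x := by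
    rw [← hx, Matrix.mulVec_mulVec, Matrix.nonsing_inv_mul _ hu, Matrix.one_mulVec]
  rw [this]

lemma inv_form_nonneg (A : Matrix ι ι ℝ) (hA : A.PosDef) (b : ι → ℝ) :
    0 ≤ b ⬝ᵥ A⁻¹.mulVec b := by
  have := inv_var A hA b 0
  simpa using this

/-- antitonicity of the quadratic form of the inverse -/
lemma inv_anti (A R : Matrix ι ι ℝ) (hA : A.PosDef) (hR : R.PosSemidef) (b : ι → ℝ) :
    b ⬝ᵥ (A + R)⁻¹.mulVec b ≤ b ⬝ᵥ A⁻¹.mulVec b := by
  have hAR : (A + R).PosDef := hA.add_posSemidef hR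
  rw [inv_var_eq _ hAR b]
  set x := (A + R)⁻¹.mulVec b
  have h1 := inv_var A hA b x
  have h2 := hR.dotProduct_mulVec_nonneg x
  rw [star_trivial] at h2
  rw [Matrix.add_mulVec, dotProduct_add]
  linarith

/-- convexity (G1e): the inverse of a convex combination. -/
lemma inv_convex {J : Type*} (s : Finset J) (lam : J → ℝ) (h0 : ∀ j ∈ s, 0 ≤ lam j)
    (h1 : ∑ j ∈ s, lam j = 1) (Q : J → Matrix ι ι ℝ) (hQ : ∀ j ∈ s, (Q j).PosSemidef)
    (b : ι → ℝ) :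
    b ⬝ᵥ (1 + ∑ j ∈ s, lam j • Q j)⁻¹.mulVec b ≤ ∑ j ∈ s, lam j * (b ⬝ᵥ (1 + Q j)⁻¹.mulVec b) := by
  have hS : (∑ j ∈ s, lam j • Q j).PosSemidef := by
    refine Matrix.posSemidef_sum s fun j hj => (hQ j hj).smul (h0 j hj)
  have hA : (1 + ∑ j ∈ s, lam j • Q j).PosDef := Matrix.PosDef.one.add_posSemidef hS
  rw [inv_var_eq _ hA b]
  set x := (1 + ∑ j ∈ s, lam j • Q j)⁻¹.mulVec b
  have e : 2 * (b ⬝ᵥ x) - x ⬝ᵥ (1 + ∑ j ∈ s, lam j • Q j).mulVec x
      = ∑ j ∈ s, lam j * (2 * (b ⬝ᵥ x) - x ⬝ᵥ (1 + Q j).mulVec x) := by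
    have e1 : (∑ j ∈ s, lam j • Q j).mulVec x = ∑ j ∈ s, lam j • (Q j).mulVec x := by
      rw [Matrix.sum_mulVec]
      refine Finset.sum_congr rfl fun j _ => ?_
      rw [Matrix.smul_mulVec]
    rw [Matrix.add_mulVec, Matrix.one_mulVec, dotProduct_add, e1, dotProduct_sum]
    have e2 : ∀ j ∈ s, lam j * (2 * (b ⬝ᵥ x) - x ⬝ᵥ (1 + Q j).mulVec x)
        = lam j * (2 * (b ⬝ᵥ x) - x ⬝ᵥ x) - x ⬝ᵥ (lam j • (Q j).mulVec x) := by
      intro j _
      rw [Matrix.add_mulVec, Matrix.one_mulVec, dotProduct_add, dotProduct_smul, smul_eq_mul]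
      ring
    rw [Finset.sum_congr rfl e2, Finset.sum_sub_distrib, ← Finset.sum_mul, h1]
    ring
  rw [e]
  refine Finset.sum_le_sum fun j hj => ?_
  exact mul_le_mul_of_nonneg_left (inv_var _ (Matrix.PosDef.one.add_posSemidef (hQ j hj)) b x) (h0 j hj)

end inv

section super
variable {ι κ : Type*} [Fintype ι] [DecidableEq ι] [Fintype κ] [DecidableEq κ]

/-- the two-point kernel -/
noncomputable def ker (L₁ L₂ : Matrix ι κ ℝ) (b : ι → ℝ) (z : (κ → ℝ) × (κ → ℝ)) : ℝ :=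
  Real.exp (-(1/2) * ((L₁.mulVec z.1 - b - L₂.mulVec z.2) ⬝ᵥ (L₁.mulVec z.1 - b - L₂.mulVec z.2)))

omit [DecidableEq ι] [DecidableEq κ] in
lemma ker_pos (L₁ L₂ : Matrix ι κ ℝ) (b : ι → ℝ) (z : (κ → ℝ) × (κ → ℝ)) : 0 < ker L₁ L₂ b z :=
  Real.exp_pos _

omit [DecidableEq ι] [DecidableEq κ] in
lemma ker_le_one (L₁ L₂ : Matrix ι κ ℝ) (b : ι → ℝ) (z : (κ → ℝ) × (κ → ℝ)) :
    ker L₁ L₂ b z ≤ 1 := by
  unfold ker
  rw [Real.exp_le_one_iff]
  have : 0 ≤ (L₁.mulVec z.1 - b - L₂.mulVec z.2) ⬝ᵥ (L₁.mulVec z.1 - b - L₂.mulVec z.2) := by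
    rw [dotProduct]; exact Finset.sum_nonneg fun i _ => mul_self_nonneg _
  linarith

omit [DecidableEq ι] [DecidableEq κ] in
lemma continuous_ker (L₁ L₂ : Matrix ι κ ℝ) (b : ι → ℝ) : Continuous (ker L₁ L₂ b) := by
  unfold ker
  fun_prop

lemma ratio_bound (Q Qg : Matrix ι ι ℝ) (hQ : Q.PosSemidef) (hQg : Qg.PosSemidef)
    (hdet : (1 + (Qg + Qg)).det = (1 + (Q + Q)).det) (b : ι → ℝ) {c : ℝ} (hc : 0 ≤ c) :
    (1 - (∑ i, ∑ j, (Qg - Q) i j ^ 2) - (b ⬝ᵥ (1 + Q)⁻¹.mulVec b) / 2)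
        * (c / Real.sqrt (1 + (Q + Q)).det)
      ≤ c / Real.sqrt (1 + (Qg + Q)).det
          * Real.exp (-(b ⬝ᵥ (1 + (Qg + Q))⁻¹.mulVec b) / 2) := by
  set H := ∑ i, ∑ j, (Qg - Q) i j ^ 2 with hH
  set β := b ⬝ᵥ (1 + Q)⁻¹.mulVec b with hβ
  set β' := b ⬝ᵥ (1 + (Qg + Q))⁻¹.mulVec b with hβ'
  set d := (1 + (Q + Q)).det with hd
  set e := (1 + (Qg + Q)).det with he
  have hd0 : 0 < d := (Matrix.PosDef.one.add_posSemidef (hQ.add hQ)).det_pos
  have he0 : 0 < e := (Matrix.PosDef.one.add_posSemidef (hQg.add hQ)).det_pos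
  have hH0 : 0 ≤ H := Finset.sum_nonneg fun i _ => Finset.sum_nonneg fun j _ => sq_nonneg _
  have hβ0 : 0 ≤ β := inv_form_nonneg _ (Matrix.PosDef.one.add_posSemidef hQ) b
  have hββ : β' ≤ β := by
    have : (1 + (Qg + Q) : Matrix ι ι ℝ) = (1 + Q) + Qg := by abel
    rw [hβ', this]
    exact inv_anti _ _ (Matrix.PosDef.one.add_posSemidef hQ) hQg b
  have hratio : (1 - H) * e ^ 2 ≤ d ^ 2 := by
    have := det_ratio Qg Q hQg hQ hdet
    rwa [hdet] at this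
  have hsd : 0 < Real.sqrt d := Real.sqrt_pos.mpr hd0
  have hse : 0 < Real.sqrt e := Real.sqrt_pos.mpr he0
  rcases le_or_gt (1 - H) 0 with hs | hs
  · have h1 : (1 - H - β / 2) * (c / Real.sqrt d) ≤ 0 :=
      mul_nonpos_of_nonpos_of_nonneg (by linarith) (by positivity)
    have h2 : 0 ≤ c / Real.sqrt e * Real.exp (-β' / 2) := by positivity
    linarith
  · have hs1 : 1 - H ≤ 1 := by linarith
    have hexp : 1 - β / 2 ≤ Real.exp (-β' / 2) := by
      have h1 : -β / 2 + 1 ≤ Real.exp (-β / 2) := Real.add_one_le_exp _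
      have h2 : Real.exp (-β / 2) ≤ Real.exp (-β' / 2) := Real.exp_le_exp.mpr (by linarith)
      linarith
    have hse2 : (1 - H) * e ≤ d := by
      have h1 : ((1 - H) * e) ^ 2 ≤ d ^ 2 := by nlinarith [sq_nonneg d]
      exact (sq_le_sq₀ (by positivity) hd0.le).mp h1
    have hsqrt : (1 - H) * Real.sqrt e ≤ Real.sqrt d := by
      apply Real.le_sqrt_of_sq_le
      rw [mul_pow, Real.sq_sqrt he0.le]
      nlinarith
    have hinv : (1 - H) * (1 / Real.sqrt d) ≤ 1 / Real.sqrt e := by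
      rw [mul_one_div, div_le_div_iff₀ hsd hse]
      linarith
    have hr : 1 - H - β / 2 ≤ (1 - H) * Real.exp (-β' / 2) := by
      nlinarith [Real.exp_pos (-β' / 2)]
    calc (1 - H - β / 2) * (c / Real.sqrt d)
        ≤ ((1 - H) * Real.exp (-β' / 2)) * (c / Real.sqrt d) :=
          mul_le_mul_of_nonneg_right hr (by positivity)
      _ = c * Real.exp (-β' / 2) * ((1 - H) * (1 / Real.sqrt d)) := by ring
      _ ≤ c * Real.exp (-β' / 2) * (1 / Real.sqrt e) :=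
          mul_le_mul_of_nonneg_left hinv (by positivity)
      _ = c / Real.sqrt e * Real.exp (-β' / 2) := by ring

/-- **Superposition theorem** (discrete form).  `L` maps the parameter space to the fields,
`P g` is orthogonal (a permutation of the classes), `b g` is the displacement field. -/
theorem superposition {G₀ : Type*} [Finite G₀] (L : Matrix ι κ ℝ) (P : G₀ → Matrix ι ι ℝ)
    (hP : ∀ g, P g * (P g)ᵀ = 1) (b : G₀ → ι → ℝ) {ε : ℝ} (hε : 0 < ε) :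
    ∃ (A : Finset (κ → ℝ)) (p : (κ → ℝ) → ℝ), (∀ a, 0 ≤ p a) ∧
      0 < (∑ a ∈ A, ∑ a' ∈ A, p a * p a' * Real.exp (-(1/2) *
          ((L.mulVec a - L.mulVec a') ⬝ᵥ (L.mulVec a - L.mulVec a')))) ∧
      ∀ g, (1 - (∑ i, ∑ j, (P g * (L * Lᵀ) * (P g)ᵀ - L * Lᵀ) i j ^ 2)
              - (b g ⬝ᵥ (1 + L * Lᵀ)⁻¹.mulVec (b g)) / 2 - ε)
          * (∑ a ∈ A, ∑ a' ∈ A, p a * p a' * Real.exp (-(1/2) *
              ((L.mulVec a - L.mulVec a') ⬝ᵥ (L.mulVec a - L.mulVec a'))))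
        ≤ ∑ a ∈ A, ∑ a' ∈ A, p a * p a' * Real.exp (-(1/2) *
            (((P g).mulVec (L.mulVec a) - b g - L.mulVec a') ⬝ᵥ
              ((P g).mulVec (L.mulVec a) - b g - L.mulVec a'))) := by
  classical
  set Q := L * Lᵀ with hQdef
  have hQ : Q.PosSemidef := by
    have := Matrix.posSemidef_self_mul_conjTranspose L
    rwa [conjTranspose_eq_transpose_of_trivial] at this
  set c : ℝ := (Real.sqrt (2 * Real.pi) ^ (Fintype.card κ)) ^ 2 with hc
  have hc0 : 0 < c := by positivity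
  set I₀ : ℝ := c / Real.sqrt (1 + (Q + Q)).det with hI₀
  have hd0 : 0 < (1 + (Q + Q)).det := (Matrix.PosDef.one.add_posSemidef (hQ.add hQ)).det_pos
  have hI₀pos : 0 < I₀ := div_pos hc0 (Real.sqrt_pos.mpr hd0)
  let K : Option G₀ → (κ → ℝ) × (κ → ℝ) → ℝ := fun g =>
    match g with
    | none => ker L L 0
    | some g => ker (P g * L) L (b g)
  have hKc : ∀ g, Continuous (K g) := by
    intro g; cases g <;> exact continuous_ker _ _ _
  have hK1 : ∀ g z, |K g z| ≤ 1 := by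
    intro g z
    cases g
    · show |ker _ _ _ _| ≤ 1
      rw [abs_of_pos (ker_pos _ _ _ _)]; exact ker_le_one _ _ _ _
    · show |ker _ _ _ _| ≤ 1
      rw [abs_of_pos (ker_pos _ _ _ _)]; exact ker_le_one _ _ _ _
  set η : ℝ := min (ε * I₀ / 2) (I₀ / 2) with hη
  have hη0 : 0 < η := lt_min (by positivity) (by positivity)
  obtain ⟨A, p, hp0, hp⟩ := discretize (gam κ) K hKc 1 hK1 hη0
  have hnone := hp none
  have hInone : ∫ z, K none z ∂((gam κ).prod (gam κ)) = I₀ := by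
    have := int_two L L (0 : ι → ℝ)
    rw [Matrix.mulVec_zero, dotProduct_zero, neg_zero, zero_div, Real.exp_zero, mul_one] at this
    exact this
  have hSeq : (∑ a ∈ A, ∑ a' ∈ A, p a * p a' * K none (a, a'))
      = ∑ a ∈ A, ∑ a' ∈ A, p a * p a' * Real.exp (-(1/2) *
          ((L.mulVec a - L.mulVec a') ⬝ᵥ (L.mulVec a - L.mulVec a'))) := by
    refine Finset.sum_congr rfl fun a _ => Finset.sum_congr rfl fun a' _ => ?_
    show p a * p a' * ker L L 0 (a, a') = _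
    simp only [ker, sub_zero]
  rw [hInone] at hnone
  set S := ∑ a ∈ A, ∑ a' ∈ A, p a * p a' * K none (a, a') with hS
  have hS1 : I₀ - η < S := by linarith [(abs_lt.mp hnone).1]
  have hS2 : S < I₀ + η := by linarith [(abs_lt.mp hnone).2]
  have hη1 : η ≤ I₀ / 2 := min_le_right _ _
  have hη2 : η ≤ ε * I₀ / 2 := min_le_left _ _
  have hSpos : 0 < S := by linarith
  refine ⟨A, p, hp0, hSeq ▸ hSpos, fun g => ?_⟩
  rw [← hSeq]
  have hg := hp (some g)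
  have hIg : ∫ z, K (some g) z ∂((gam κ).prod (gam κ))
      = c / Real.sqrt (1 + (P g * Q * (P g)ᵀ + Q)).det
          * Real.exp (-(b g ⬝ᵥ (1 + (P g * Q * (P g)ᵀ + Q))⁻¹.mulVec (b g)) / 2) := by
    have h1 := int_two (P g * L) L (b g)
    have h2 : P g * L * (P g * L)ᵀ = P g * Q * (P g)ᵀ := by
      rw [Matrix.transpose_mul, hQdef]; simp only [Matrix.mul_assoc]
    rw [h2] at h1
    exact h1
  have hSg : (∑ a ∈ A, ∑ a' ∈ A, p a * p a' * K (some g) (a, a'))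
      = ∑ a ∈ A, ∑ a' ∈ A, p a * p a' * Real.exp (-(1/2) *
            (((P g).mulVec (L.mulVec a) - b g - L.mulVec a') ⬝ᵥ
              ((P g).mulVec (L.mulVec a) - b g - L.mulVec a'))) := by
    refine Finset.sum_congr rfl fun a _ => Finset.sum_congr rfl fun a' _ => ?_
    show p a * p a' * ker (P g * L) L (b g) (a, a') = _
    simp only [ker, Matrix.mulVec_mulVec]
  rw [← hSg]
  set Sg := ∑ a ∈ A, ∑ a' ∈ A, p a * p a' * K (some g) (a, a') with hSgdef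
  have hSg0 : 0 ≤ Sg := by
    refine Finset.sum_nonneg fun a _ => Finset.sum_nonneg fun a' _ => ?_
    exact mul_nonneg (mul_nonneg (hp0 a) (hp0 a')) (ker_pos _ _ _ _).le
  have hQg : (P g * Q * (P g)ᵀ).PosSemidef := by
    have := hQ.mul_mul_conjTranspose_same (P g)
    rwa [conjTranspose_eq_transpose_of_trivial] at this
  have hdet : (1 + (P g * Q * (P g)ᵀ + P g * Q * (P g)ᵀ)).det = (1 + (Q + Q)).det := by
    have h1 : 1 + (P g * Q * (P g)ᵀ + P g * Q * (P g)ᵀ) = P g * (1 + (Q + Q)) * (P g)ᵀ := by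
      rw [Matrix.mul_add, Matrix.add_mul, Matrix.mul_one, hP g, Matrix.mul_add, Matrix.add_mul]
    have h2 : (P g).det * (P g).det = 1 := by
      have := congrArg Matrix.det (hP g)
      rwa [Matrix.det_mul, Matrix.det_transpose, Matrix.det_one] at this
    rw [h1, Matrix.det_mul, Matrix.det_mul, Matrix.det_transpose]
    linear_combination (1 + (Q + Q)).det * h2
  have hrb := ratio_bound Q (P g * Q * (P g)ᵀ) hQ hQg hdet (b g) hc0.le
  rw [← hIg, ← hI₀] at hrb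
  set H := ∑ i, ∑ j, (P g * Q * (P g)ᵀ - Q) i j ^ 2 with hH
  set β := b g ⬝ᵥ (1 + Q)⁻¹.mulVec (b g) with hβ
  have hH0 : 0 ≤ H := Finset.sum_nonneg fun i _ => Finset.sum_nonneg fun j _ => sq_nonneg _
  have hβ0 : 0 ≤ β := inv_form_nonneg _ (Matrix.PosDef.one.add_posSemidef hQ) (b g)
  have hSglow : (∫ z, K (some g) z ∂((gam κ).prod (gam κ))) - η < Sg := by
    linarith [(abs_lt.mp hg).1]
  rcases le_or_gt (1 - H - β / 2 - ε) 0 with hr | hr
  · have : (1 - H - β / 2 - ε) * S ≤ 0 := mul_nonpos_of_nonpos_of_nonneg hr hSpos.le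
    linarith
  · have h1 : (1 - H - β / 2 - ε) * S ≤ (1 - H - β / 2 - ε) * (I₀ + η) :=
      mul_le_mul_of_nonneg_left hS2.le hr.le
    have h2 : (1 - H - β / 2 - ε) * (I₀ + η) ≤ (1 - H - β / 2) * I₀ + η - ε * I₀ := by
      nlinarith
    linarith

end super

end Vale.Agent.P196.H34
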