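import Vale.Agent.P196.H34.GaussInt

open MeasureTheory Matrix
open scoped Matrix

namespace Vale.Agent.P196.H34

section
variable {κ : Type*} [Fintype κ]

/-- unnormalised standard Gaussian weight -/
noncomputable def gw (x : κ → ℝ) : ℝ := Real.exp (-(1/2) * (x ⬝ᵥ x))

lemma gw_pos (x : κ → ℝ) : 0 < gw x := Real.exp_pos _

lemma continuous_gw : Continuous (gw : (κ → ℝ) → ℝ) := by
  unfold gw; fun_prop

lemma integral_gw : ∫ x : κ → ℝ, gw x = Real.sqrt (2 * Real.pi) ^ (Fintype.card κ) := by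
  have := int_prod (0 : κ → ℝ)
  simpa [gw] using this

lemma integrable_gw : Integrable (gw : (κ → ℝ) → ℝ) := by
  refine MeasureTheory.Integrable.of_integral_ne_zero ?_
  rw [integral_gw]
  positivity

/-- unnormalised standard Gaussian measure on `κ → ℝ`. -/
noncomputable def gam (κ : Type*) [Fintype κ] : Measure (κ → ℝ) :=
  (volume : Measure (κ → ℝ)).withDensity (fun x => ENNReal.ofReal (gw x))

instance : IsFiniteMeasure (gam κ) :=
  isFiniteMeasure_withDensity_ofReal integrable_gw.hasFiniteIntegral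

lemma integral_gam_prod (F : (κ → ℝ) × (κ → ℝ) → ℝ) :
    ∫ z, F z ∂((gam κ).prod (gam κ)) = ∫ z : (κ → ℝ) × (κ → ℝ), gw z.1 * gw z.2 * F z := by
  have hm : Measurable (fun x : κ → ℝ => ENNReal.ofReal (gw x)) :=
    continuous_gw.measurable.ennreal_ofReal
  unfold gam
  rw [prod_withDensity hm hm]
  have : (fun z : (κ → ℝ) × (κ → ℝ) => ENNReal.ofReal (gw z.1) * ENNReal.ofReal (gw z.2))
      = fun z => ENNReal.ofReal (gw z.1 * gw z.2) := by
    funext z
    rw [ENNReal.ofReal_mul (gw_pos _).le]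
  rw [this, integral_withDensity_eq_integral_toReal_smul]
  · refine integral_congr_ae (Filter.Eventually.of_forall fun z => ?_)
    simp only [smul_eq_mul]
    rw [ENNReal.toReal_ofReal (mul_nonneg (gw_pos _).le (gw_pos _).le)]
  · exact ((continuous_gw.comp continuous_fst).mul (continuous_gw.comp continuous_snd)).measurable.ennreal_ofReal
  · exact Filter.Eventually.of_forall fun z => ENNReal.ofReal_lt_top

variable [DecidableEq κ] {ι : Type*} [Fintype ι] [DecidableEq ι]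

/-- Two-copy overlap formula (G1b). -/
theorem int_two (L₁ L₂ : Matrix ι κ ℝ) (b : ι → ℝ) :
    ∫ z, Real.exp (-(1/2) * ((L₁.mulVec z.1 - b - L₂.mulVec z.2) ⬝ᵥ
        (L₁.mulVec z.1 - b - L₂.mulVec z.2))) ∂((gam κ).prod (gam κ))
      = (Real.sqrt (2 * Real.pi) ^ (Fintype.card κ)) ^ 2
          / Real.sqrt (1 + (L₁ * L₁ᵀ + L₂ * L₂ᵀ)).det
          * Real.exp (-(b ⬝ᵥ (1 + (L₁ * L₁ᵀ + L₂ * L₂ᵀ))⁻¹.mulVec b)/2) := by
  rw [integral_gam_prod]
  have key := int_shift (Matrix.fromCols L₁ (-L₂)) b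
  have hLL : Matrix.fromCols L₁ (-L₂) * (Matrix.fromCols L₁ (-L₂))ᵀ = L₁ * L₁ᵀ + L₂ * L₂ᵀ := by
    rw [Matrix.transpose_fromCols, Matrix.fromCols_mul_fromRows, Matrix.transpose_neg,
      Matrix.neg_mul, Matrix.mul_neg, neg_neg]
  rw [hLL] at key
  rw [Fintype.card_sum, pow_add, ← sq] at key
  rw [← key]
  have hmp := volume_measurePreserving_sumPiEquivProdPi (fun _ : κ ⊕ κ => ℝ)
  rw [← hmp.integral_comp (MeasurableEquiv.sumPiEquivProdPi (fun _ : κ ⊕ κ => ℝ)).measurableEmbedding]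
  refine integral_congr_ae (Filter.Eventually.of_forall fun z => ?_)
  have h1 : z ⬝ᵥ z = (z ∘ Sum.inl) ⬝ᵥ (z ∘ Sum.inl) + (z ∘ Sum.inr) ⬝ᵥ (z ∘ Sum.inr) := by
    simp [dotProduct, Fintype.sum_sum_type]
  have h2 : (Matrix.fromCols L₁ (-L₂)).mulVec z - b
      = L₁.mulVec (z ∘ Sum.inl) - b - L₂.mulVec (z ∘ Sum.inr) := by
    rw [Matrix.fromCols_mulVec, Matrix.neg_mulVec]
    abel
  have h3 : (MeasurableEquiv.sumPiEquivProdPi (fun _ : κ ⊕ κ => ℝ)) z
      = (z ∘ Sum.inl, z ∘ Sum.inr) := rfl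
  simp only [h3]
  rw [h1, h2, mul_add, Real.exp_add]
  rfl

end

end Vale.Agent.P196.H34
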